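import Vale.Agent.P215Z.Frm.Log
import Vale.Agent.P215Z.Frm.Defs2
import Vale.Agent.P215Z.Abs.Abs

/-! R7, algebra: logarithms of two by two matrices, and the absorption step -/

noncomputable section

namespace Vale.Agent.P215Z.Fin7

open MvPolynomial Classical

variable {O : Type} [CommRing O] [Algebra ℚ O] {a : Ideal O}

omit [Algebra ℚ O] in
theorem sq_two (z : M2 O) : z * z = z.trace • z - z.det • (1 : M2 O) := by
  ext i j
  fin_cases i <;> fin_cases j <;>
    simp [Matrix.mul_apply, Fin.sum_univ_two, Matrix.trace_fin_two, Matrix.det_fin_two] <;> ring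

omit [Algebra ℚ O] in
theorem pow_two_two {z : M2 O} (hz : InC a z) (k : ℕ) :
    ∃ p ∈ a, ∃ q ∈ a, z ^ (k + 2) = p • z + q • (1 : M2 O) := by
  have ht : z.trace ∈ a := hz.trace
  have hd : z.det ∈ a := by
    rw [Matrix.det_fin_two]
    exact a.sub_mem (a.mul_mem_right _ (hz 0 0)) (a.mul_mem_right _ (hz 0 1))
  induction k with
  | zero => exact ⟨_, ht, _, a.neg_mem hd, by rw [zero_add, pow_two, sq_two, neg_smul, sub_eq_add_neg]⟩
  | succ k ih =>
    obtain ⟨p, hp, q, hq, e⟩ := ih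
    refine ⟨p * z.trace + q, a.add_mem (a.mul_mem_right _ hp) hq, -(p * z.det),
      a.neg_mem (a.mul_mem_right _ hp), ?_⟩
    rw [show k + 1 + 2 = k + 2 + 1 from rfl, pow_succ, e, add_mul, smul_mul_assoc, smul_mul_assoc,
      one_mul, sq_two, smul_sub, smul_smul, smul_smul, add_smul, neg_smul]
    abel

/-- commutators with `h` and with its logarithm differ by a scalar -/
theorem lie_eq_smul (ha : IsNilpotent a) {h : M2 O} (hh : InC a (h - 1)) :
    ∃ u : O, ∀ n : M2 O, ⁅n, h⁆ = u • ⁅n, lg h⁆ := by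
  obtain ⟨m, hm⟩ := InC.isNilpotent ha hh
  have hm' : (h - 1) ^ (m + 1) = 0 := by rw [pow_succ, hm, zero_mul]
  have key : ∀ k : ℕ, ∃ p ∈ a, ∃ q : O, ∑ j ∈ Finset.range (k + 1),
      ((-1 : ℚ) ^ j / (j + 1)) • (h - 1) ^ (j + 1) = (1 + p) • (h - 1) + q • (1 : M2 O) := by
    intro k
    induction k with
    | zero => exact ⟨0, a.zero_mem, 0, by simp⟩
    | succ k ih =>
      obtain ⟨p, hp, q, e⟩ := ih
      obtain ⟨p', hp', q', -, e'⟩ := pow_two_two hh k
      set r : ℚ := (-1 : ℚ) ^ (k + 1) / ((k + 1 : ℕ) + 1) with hr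
      refine ⟨p + r • p', a.add_mem hp ?_, q + r • q', ?_⟩
      · rw [Algebra.smul_def]
        exact a.mul_mem_left _ hp'
      · rw [Finset.sum_range_succ, e, ← hr, show k + 1 + 1 = k + 2 from rfl, e', smul_add,
          ← smul_assoc, ← smul_assoc, ← add_assoc 1, add_smul (1 + p), add_smul q]
        abel
  obtain ⟨p, hp, q, e⟩ := key m
  rw [← lg_eq_sum h (m + 1) hm'] at e
  have hp' : IsNilpotent p := by
    obtain ⟨k, hk⟩ := ha
    exact ⟨k, by simpa [hk] using Ideal.pow_mem_pow hp k⟩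
  obtain ⟨u, hu⟩ := hp'.isUnit_one_add
  refine ⟨↑u⁻¹, fun n => ?_⟩
  rw [e, ← hu]
  simp only [Ring.lie_def, mul_add, add_mul, mul_smul_comm, smul_mul_assoc, mul_sub, sub_mul,
    mul_one, one_mul, smul_sub, smul_add, smul_smul, Units.inv_mul, one_smul]
  abel

omit [Algebra ℚ O] in
theorem inC_lie {b b' : Ideal O} {x y : M2 O} (hx : InC b x) (hy : InC b' y) :
    InC (b * b') ⁅x, y⁆ := Abs.In.lie hx hy

omit [Algebra ℚ O] in
theorem lie_add' (x y z : M2 O) : ⁅x, y + z⁆ = ⁅x, y⁆ + ⁅x, z⁆ := by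
  simp only [Ring.lie_def, mul_add, add_mul]
  abel

omit [Algebra ℚ O] in
theorem lie_smul' {T : Type} [Monoid T] [DistribMulAction T (M2 O)] [IsScalarTower T (M2 O) (M2 O)]
    [SMulCommClass T (M2 O) (M2 O)] (r : T) (x y : M2 O) : ⁅x, r • y⁆ = r • ⁅x, y⁆ := by
  simp only [Ring.lie_def, mul_smul_comm, smul_mul_assoc, smul_sub]

omit [Algebra ℚ O] in
theorem trace_lie_mul (n μ w : M2 O) : (⁅n, μ⁆ * w).trace = -(μ * ⁅n, w⁆).trace := by
  simp only [Ring.lie_def, sub_mul, mul_sub, Matrix.trace_sub, neg_sub]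
  rw [Matrix.trace_mul_cycle n μ w, Matrix.trace_mul_cycle w n μ, mul_assoc μ w, mul_assoc μ n]

/-- the absorption step in the form which is needed -/
theorem absorb' {E : Type} [Fintype E] (ha : IsNilpotent a) (Ψ : MvPolynomial (E × I2) O)
    (I J : E → Ideal O) (hIJ : ∀ c, I c ≤ J c) (hJ : ∀ c, J c * J c = ⊥) (hJa : ∀ c, J c ≤ a)
    (n h w : E → M2 O) (ε : E → ℚ) (hε : ∀ c, ε c ≠ 0) (hn : ∀ c, InC (I c) (n c))
    (hh : ∀ c, InC a (h c - 1)) (R : Ideal O)
    (hR : R = Ideal.span {f | ∃ c i j, f = ⁅n c, h c⁆ i j})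
    (hg : ∀ c, InC (R ⊔ J c) (Abs.grad Ψ n c - ε c • lg (h c)))
    (hw : ∀ c, InC R ⁅n c, w c⁆)
    (hv : Abs.val n Ψ - ∑ c, (⁅n c, h c⁆ * w c).trace ∈ R ^ 2) :
    ∃ n' : E → M2 O, (∀ c, InC (I c) (n' c)) ∧ (∀ c, InC R (n' c - n c)) ∧
      Abs.MM Ψ n' = R ∧ Abs.val n' Ψ = 0 := by
  obtain ⟨K, hK⟩ := id ha
  have hK' : a ^ K = ⊥ := hK
  have hna : ∀ c, InC a (n c) := fun c => (hn c).mono ((hIJ c).trans (hJa c))
  have h0 : ∀ c, InC R ⁅n c, h c⁆ := fun c i j => hR ▸ Ideal.subset_span ⟨c, i, j, rfl⟩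
  have hRa : R ≤ a := by
    rw [hR, Ideal.span_le]
    rintro _ ⟨c, i, j, rfl⟩
    exact Abs.In.lie_left (hna c) _ i j
  choose μ ν hμ hν e using fun c => (hg c).sup
  have hz : ∀ c, ⁅n c, ν c⁆ = 0 := fun c =>
    inC_bot.1 (hJ c ▸ inC_lie ((hn c).mono (hIJ c)) (hν c))
  have e1 : ∀ c, ⁅n c, lg (h c)⁆ = (ε c)⁻¹ • (⁅n c, Abs.grad Ψ n c⁆ - ⁅n c, μ c⁆) := by
    intro c
    rw [eq_add_of_sub_eq (e c), lie_add', lie_add', hz, lie_smul', add_zero, add_sub_cancel_left,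
      smul_smul, inv_mul_cancel₀ (hε c), one_smul]
  have sm : ∀ {b : Ideal O} {y : M2 O} (r : ℚ), InC b y → InC b (r • y) := fun r hy => by
    rw [← algebraMap_smul O]
    exact hy.smul _
  have hM : Abs.MM Ψ n = R := by
    refine le_antisymm (Abs.MM_le Ψ fun c => ?_) (Abs.le_of_nil hK' ?_)
    · change InC R _
      rw [eq_add_of_sub_eq (e c), lie_add', lie_add', hz, lie_smul', add_zero]
      exact InC.add (Abs.In.lie_right _ (hμ c)) (sm _ (lie_lg ha (hh c) (h0 c)))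
    · conv_lhs => rw [hR]
      rw [Ideal.span_le]
      rintro _ ⟨c, i, j, rfl⟩
      refine lie_of_lg ha (hh c) ?_ i j
      rw [e1]
      exact sm _ (InC.sub (InC.mono le_sup_left (Abs.in_MM Ψ n c))
        (InC.mono le_sup_right (inC_lie (hna c) (hμ c))))
  choose u hu using fun c => lie_eq_smul ha (hh c)
  have hga : ∀ c, Abs.In a (Abs.grad Ψ n c) := by
    intro c
    change InC a _
    rw [eq_add_of_sub_eq (e c)]
    refine InC.add (InC.add ((hμ c).mono hRa) ((hν c).mono (hJa c))) (sm _ ?_)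
    have := InC.add ((lg_first ha (hh c) (hh c)).mono Ideal.mul_le_left) (hh c)
    rwa [sub_add_cancel] at this
  have hA : ∀ c, InC R ⁅n c, (ε c)⁻¹ • u c • w c⁆ := fun c => by
    rw [lie_smul', lie_smul']
    exact sm _ ((hw c).smul _)
  have := Abs.absorb Ψ hK' I (fun c => (hIJ c).trans (hJa c)) n hn hga
    (fun c => (ε c)⁻¹ • u c • w c) (by rw [hM]; exact hA) ?_
  · rwa [hM] at this
  · rw [hM, ← pow_two]
    have e2 : ∀ c, (⁅n c, h c⁆ * w c).trace = (⁅n c, Abs.grad Ψ n c⁆ * ((ε c)⁻¹ • u c • w c)).trace +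
        (μ c * ⁅n c, (ε c)⁻¹ • u c • w c⁆).trace := by
      intro c
      rw [← sub_neg_eq_add, ← trace_lie_mul, ← Matrix.trace_sub, ← sub_mul, hu, e1]
      simp only [mul_smul_comm, smul_mul_assoc]
      rw [smul_comm]
    simp only [e2, Finset.sum_add_distrib] at hv
    have h3 : ∑ c, (μ c * ⁅n c, (ε c)⁻¹ • u c • w c⁆).trace ∈ R ^ 2 :=
      Ideal.sum_mem _ fun c _ => by
        rw [pow_two]
        exact ((hμ c).mul (hA c)).trace
    have h4 := Ideal.add_mem _ hv h3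
    rwa [← sub_sub, sub_add_cancel] at h4

omit [Algebra ℚ O] in
theorem lie3_sub {d : Ideal O} {x y z x' y' z' : M2 O} (hx : InC d (x - x')) (hy : InC d (y - y'))
    (hz : InC d (z - z')) : InC d (⁅⁅x, y⁆, z⁆ - ⁅⁅x', y'⁆, z'⁆) := by
  have key : ∀ {x y x' y' : M2 O}, InC d (x - x') → InC d (y - y') → InC d (⁅x, y⁆ - ⁅x', y'⁆) := by
    intro x y x' y' hx hy
    have := (InC.mul_sub hx hy).sub (InC.mul_sub hy hx)
    rwa [show x * y - x' * y' - (y * x - y' * x') = ⁅x, y⁆ - ⁅x', y'⁆ by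
      simp only [Ring.lie_def]; abel] at this
  exact key (key hx hy) hz

omit [Algebra ℚ O] in
theorem mul_le_sup {d x y x' y' : Ideal O} (hx : x ≤ x' ⊔ d) (hy : y ≤ y' ⊔ d) :
    x * y ≤ x' * y' ⊔ d := by
  refine (Ideal.mul_mono hx hy).trans ?_
  rw [Ideal.sup_mul, Ideal.mul_sup]
  exact sup_le (sup_le le_sup_left (Ideal.mul_le_right.trans le_sup_right))
    (Ideal.mul_le_left.trans le_sup_right)

/-! ### the quotient ring -/

variable (L : Letters)

/-- the quotient by the products of two variables with the same mark -/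
def Oq : Type := L.P ⧸ L.NN

instance : CommRing (Oq L) := Ideal.Quotient.commRing L.NN

instance : Algebra ℚ (Oq L) := Ideal.Quotient.algebra ℚ (I := L.NN)

/-- the projection -/
def pr : L.P →+* Oq L := Ideal.Quotient.mk L.NN

theorem pr_surj : Function.Surjective (pr L) := Ideal.Quotient.mk_surjective

theorem pr_eq_zero {y : L.P} : pr L y = 0 ↔ y ∈ L.NN := Ideal.Quotient.eq_zero_iff_mem

theorem mem_of_pr {J : Ideal L.P} {y : L.P} (h : pr L y ∈ J.map (pr L)) : y ∈ J ⊔ L.NN := by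
  obtain ⟨z, hz, e⟩ := (Ideal.mem_map_iff_of_surjective _ (pr_surj L)).1 h
  have : y - z ∈ L.NN := (pr_eq_zero L).1 (by rw [map_sub, e, sub_self])
  exact Submodule.mem_sup.2 ⟨z, hz, y - z, this, by abel⟩

theorem II_le (g : Mk) : L.II g ≤ L.AA :=
  Ideal.span_mono fun _ ⟨v, _, h⟩ => ⟨v, h⟩

theorem II_mul (g : Mk) : L.II g * L.II g ≤ L.NN := by
  rw [Letters.II, Ideal.span_mul_span', Ideal.span_le]
  rintro _ ⟨_, ⟨v, hv, rfl⟩, _, ⟨v', hv', rfl⟩, rfl⟩
  exact Ideal.subset_span ⟨v, v', hv.trans hv'.symm, rfl⟩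

theorem Low_le (v : L.Var) : L.Low v ≤ L.II (L.vmark v) :=
  Ideal.span_mono fun _ ⟨v', h, _, e⟩ => ⟨v', h, e⟩

/-- the ideals of the quotient ring -/
def mkd : Marked (Oq L) Mk where
  a := L.AA.map (pr L)
  ii := fun g => (L.II g).map (pr L)
  nil := by
    have h : L.AA.map (pr L) = Ideal.span (Set.range fun v : L.Var => pr L (X v)) := by
      rw [Letters.AA, Ideal.map_span]
      congr 1
      ext y
      constructor
      · rintro ⟨_, ⟨v, rfl⟩, rfl⟩
        exact ⟨v, rfl⟩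
      · rintro ⟨v, rfl⟩
        exact ⟨_, ⟨v, rfl⟩, rfl⟩
    rw [h, Ideal.FG.isNilpotent_iff_le_nilradical (Submodule.fg_span (Set.finite_range _)),
      Ideal.span_le]
    rintro _ ⟨v, rfl⟩
    refine ⟨2, ?_⟩
    rw [← map_pow, pow_two]
    exact (pr_eq_zero L).2 (Ideal.subset_span ⟨v, v, rfl, rfl⟩)
  sq := fun g => by
    rw [← Ideal.map_mul, eq_bot_iff]
    refine (Ideal.map_mono (II_mul L g)).trans ?_
    rw [Ideal.map_le_iff_le_comap]
    exact fun y hy => (pr_eq_zero L).2 hy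
  le := fun g => Ideal.map_mono (II_le L g)

/-- the ideals, seen from a leg -/
def mkl (l : Lg) : Marked (Oq L) Mk where
  a := (mkd L).a
  ii := fun g => if l.2 then (mkd L).ii g else
    g.elim (fun g => (mkd L).ii (Sum.inl ((FreeGroup.of l.1)⁻¹ * g))) fun _ => ⊥
  nil := (mkd L).nil
  sq := fun g => by
    split_ifs
    · exact (mkd L).sq g
    · cases g
      · exact (mkd L).sq _
      · exact Ideal.bot_mul _
  le := fun g => by
    split_ifs
    · exact (mkd L).le g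
    · cases g
      · exact (mkd L).le _
      · exact bot_le

theorem mkl_some (l : Lg) (c : L.C l.1) :
    (mkl L l).ii (L.cmark (l.1, true) (some c)) = (mkd L).ii (L.cmark l (some c)) := by
  obtain ⟨i, _ | _⟩ := l <;> rfl

/-- the letters -/
def xx (l : Lg) (c : Option (L.C l.1)) : M2 (Oq L) := fun a b => pr L (X ⟨l, (c, (a, b))⟩)

theorem xx_mem (l : Lg) (c : Option (L.C l.1)) : InC ((mkd L).ii (L.cmark l c)) (xx L l c) :=
  fun a b => Ideal.mem_map_of_mem _ (Ideal.subset_span ⟨⟨l, (c, (a, b))⟩, rfl, rfl⟩)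

theorem pderiv_inc (l : Lg) (w : L.WV l.1) (f : MvPolynomial (L.WV l.1) ℚ) :
    pderiv (⟨l, w⟩ : L.Var) (L.inc l f) = L.inc l (pderiv w f) :=
  pderiv_rename (f := fun w => (⟨l, w⟩ : L.Var))
    (fun _ _ h => sigma_mk_injective (β := fun l : Lg => L.WV l.1) h) w f

theorem pderiv_inc_ne {l : Lg} {v : L.Var} (h : v.1 ≠ l) (f : MvPolynomial (L.WV l.1) ℚ) :
    pderiv v (L.inc l f) = 0 := by
  induction f using MvPolynomial.induction_on with
  | C a => simp [Letters.inc]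
  | add p q hp hq => rw [map_add, map_add, hp, hq, add_zero]
  | mul_X p w hp =>
    rw [map_mul, pderiv_mul, hp, zero_mul, zero_add, Letters.inc, rename_X, pderiv_X_of_ne, mul_zero]
    rintro rfl
    exact h rfl

theorem pderiv_Psi (φ : ∀ i, MvPolynomial (L.WV i) ℚ) (l : Lg) (w : L.WV l.1) :
    pderiv (⟨l, w⟩ : L.Var) (L.Psi φ) = Letters.sg l • L.inc l (pderiv w (φ l.1)) := by
  rw [Letters.Psi, map_sum, Finset.sum_eq_single l]
  · rw [Derivation.map_smul, pderiv_inc]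
  · intro l' _ hl
    rw [Derivation.map_smul, pderiv_inc_ne L (Ne.symm hl), smul_zero]
  · simp

theorem sg_ne (l : Lg) : Letters.sg l ≠ 0 := by
  unfold Letters.sg
  split_ifs <;> norm_num

end Vale.Agent.P215Z.Fin7
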